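import Vale.Agent.P142.Main

open MeasureTheory Complex Set Metric Filter Topology
open scoped Real

namespace Vale.Agent.Results.P142.B_bound

/-- the class S of normalized univalent functions on the unit disc -/
def classS : Set (ℂ → ℂ) :=
  {f | DifferentiableOn ℂ f (ball 0 1) ∧ InjOn f (ball 0 1) ∧ f 0 = 0 ∧ deriv f 0 = 1}

/-- the integral mean `M_t[f'](r)` -/
noncomputable def means (f : ℂ → ℂ) (t r : ℝ) : ℝ :=
  1 / (2 * π) * ∫ θ in (-π)..π, ‖deriv f (r * exp (θ * I))‖ ^ t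

/-- the exponent `β_f(t)` -/
noncomputable def expo (f : ℂ → ℂ) (t : ℝ) : EReal :=
  limsup (fun r : ℝ => ((Real.log (means f t r) / Real.log (1 / (1 - r)) : ℝ) : EReal)) (𝓝[<] 1)

/-- the integral means spectrum `B_S(t)` -/
noncomputable def spectrumS (t : ℝ) : EReal := ⨆ f ∈ classS, expo f t

theorem result :
    spectrumS (-2) ≤ ((1.124425 : ℝ) : EReal) ∧
    (∀ β : ℝ, 0 < β →
      2 < β * (β + 1) * ∫ x in (0 : ℝ)..1, x * (1 - x) / (x ^ (β + 3) + (1 - x) ^ (β + 3)) →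
      spectrumS (-2) ≤ (β : EReal)) ∧
    (∀ f : ℂ → ℂ, DifferentiableOn ℂ f (ball 0 1) → InjOn f (ball 0 1) →
      ∀ t : ℝ, -1.7786 ≤ t → t ≤ 0 → IntegrableOn (fun z => ‖deriv f z‖ ^ t) (ball 0 1)) ∧
    (∀ W : Set ℂ, IsOpen W → ∀ φ : ℂ → ℂ, DifferentiableOn ℂ φ W → BijOn φ W (ball 0 1) →
      ∀ s : ℝ, 2 ≤ s → s ≤ 3.7786 → IntegrableOn (fun z => ‖deriv φ z‖ ^ s) W) := by
  have key : ∀ β : ℝ, 0 < β → 2 < β * (β + 1) * Vale.Agent.P142.Jint β →
      spectrumS (-2) ≤ (β : EReal) := fun β hβ hJ => by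
    refine iSup₂_le fun f hf => ?_
    obtain ⟨C, hC, h⟩ := Vale.Agent.P142.ms_le hf.1 hf.2.1 hβ hJ
    simp only [expo, means, Vale.Agent.P142.means_eq]
    exact Vale.Agent.P142.limsup_le hC hβ (Vale.Agent.P142.ms_nonneg _) h
  refine ⟨key _ (by norm_num) Vale.Agent.P142.numeric, key, fun f hd hi t h1 h0 => ?_,
    fun W hW φ hd hb s h0 h1 => ?_⟩
  · exact Vale.Agent.P142.integrableOn_f (Vale.Agent.P142.integrable_f hd hi (by norm_num)
      Vale.Agent.P142.numeric (lt_of_lt_of_le (by norm_num) h1) (by linarith) h0)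
  · exact Vale.Agent.P142.integrableOn_f (Vale.Agent.P142.integrable_phi hW hd hb (by norm_num)
      Vale.Agent.P142.numeric (lt_of_le_of_lt h1 (by norm_num)) (by linarith) h0)

end Vale.Agent.Results.P142.B_bound
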